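import Mathlib

/-!
# P087, module GUE: Gaussian moments.
-/

open MeasureTheory ProbabilityTheory
open scoped NNReal

namespace Vale.Agent.P087

namespace GUE

/-- The moment `∫ x^n` of the centred Gaussian law of variance `v`. -/
noncomputable def gmom (v : ℝ≥0) (n : ℕ) : ℝ := ∫ x, x ^ n ∂gaussianReal 0 v

theorem integrable_pow_gaussian (v : ℝ≥0) (n : ℕ) :
    Integrable (fun x : ℝ => x ^ n) (gaussianReal 0 v) := by
  have h := (memLp_id_gaussianReal (μ := 0) (v := v) n).integrable_norm_pow'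
  refine h.mono' (by fun_prop) (ae_of_all _ fun x => ?_)
  simp [norm_pow]

theorem integrable_pow_pdf {v : ℝ≥0} (hv : v ≠ 0) (n : ℕ) :
    Integrable (fun x : ℝ => gaussianPDFReal 0 v x * x ^ n) := by
  have h := integrable_pow_gaussian v n
  rw [gaussianReal_of_var_ne_zero 0 hv, integrable_withDensity_iff_integrable_smul'
    (measurable_gaussianPDF 0 v) (ae_of_all _ fun x => gaussianPDF_lt_top)] at h
  simpa [toReal_gaussianPDF] using h

theorem hasDerivAt_pdf {v : ℝ≥0} (hv : v ≠ 0) (x : ℝ) :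
    HasDerivAt (fun t => gaussianPDFReal 0 v t) (-(x / v) * gaussianPDFReal 0 v x) x := by
  have hv' : (v : ℝ) ≠ 0 := by exact_mod_cast hv
  have h1 : HasDerivAt (fun t : ℝ => -(t - 0) ^ 2 / (2 * v)) (-(x / v)) x := by
    refine ((((hasDerivAt_id x).sub_const 0).pow 2).neg.div_const (2 * (v : ℝ))).congr_deriv ?_
    simp
    field_simp
  refine (h1.exp.const_mul (Real.sqrt (2 * Real.pi * v))⁻¹).congr_deriv ?_
  rw [gaussianPDFReal]
  ring

theorem gmom_zero (v : ℝ≥0) : gmom v 0 = 1 := by simp [gmom]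

theorem gmom_succ {v : ℝ≥0} (hv : v ≠ 0) (n : ℕ) : gmom v (n + 1) = v * n * gmom v (n - 1) := by
  have hv' : (v : ℝ) ≠ 0 := by exact_mod_cast hv
  simp only [gmom, integral_gaussianReal_eq_integral_smul hv, smul_eq_mul]
  set φ := fun t => gaussianPDFReal 0 v t with hφ
  have i1 : Integrable ((fun x : ℝ => x ^ n) * fun x => φ x * x) := by
    refine (integrable_pow_pdf hv (n + 1)).congr (ae_of_all _ fun x => ?_)
    simp only [Pi.mul_apply, hφ, pow_succ]
    ring
  have i2 : Integrable ((fun x : ℝ => (n : ℝ) * x ^ (n - 1)) * fun x => -(v : ℝ) * φ x) := by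
    refine ((integrable_pow_pdf hv (n - 1)).const_mul ((n : ℝ) * -(v : ℝ))).congr
      (ae_of_all _ fun x => ?_)
    simp only [Pi.mul_apply, hφ]
    ring
  have i3 : Integrable ((fun x : ℝ => x ^ n) * fun x => -(v : ℝ) * φ x) := by
    refine ((integrable_pow_pdf hv n).const_mul (-(v : ℝ))).congr (ae_of_all _ fun x => ?_)
    simp only [Pi.mul_apply, hφ]
    ring
  have h := integral_mul_deriv_eq_deriv_mul_of_integrable (A := ℝ)
    (u := fun x : ℝ => x ^ n) (u' := fun x : ℝ => (n : ℝ) * x ^ (n - 1))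
    (v := fun x => -(v : ℝ) * φ x) (v' := fun x => φ x * x)
    (fun x _ => hasDerivAt_pow n x)
    (fun x _ => ((hasDerivAt_pdf hv x).const_mul (-(v : ℝ))).congr_deriv (by simp only [hφ]; field_simp))
    i1 i2 i3
  rw [← integral_const_mul, ← integral_neg] at *
  convert h using 1
  · exact integral_congr_ae (ae_of_all _ fun x => by simp only [hφ, pow_succ]; ring)
  · exact integral_congr_ae (ae_of_all _ fun x => by simp only [hφ]; ring)

end GUE

end Vale.Agent.P087
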