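import Vale.Agent.P087.Core

/-!
# P087, module GUE: sums over splittings of a word at a letter; the Schwinger–Dyson recursion of
free semicircular variables.
-/

namespace Vale.Agent.P087

namespace GUE

section Split

variable {Λ M N : Type} [DecidableEq Λ] [AddCommMonoid M] [AddCommMonoid N]

/-- `∑ f u v` over the splittings `w = u ++ a :: v`. -/
def split (a : Λ) : (List Λ → List Λ → M) → List Λ → M
  | _, [] => 0
  | f, c :: w => (if a = c then f [] w else 0) + split a (fun u v => f (c :: u) v) w

theorem split_add (a : Λ) (f g : List Λ → List Λ → M) (w : List Λ) :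
    split a (fun u v => f u v + g u v) w = split a f w + split a g w := by
  induction w generalizing f g with
  | nil => simp [split]
  | cons c w ih =>
    simp only [split, ih]
    split_ifs <;> abel

theorem split_zero (a : Λ) (w : List Λ) : split a (fun _ _ => (0 : M)) w = 0 := by
  induction w with
  | nil => simp [split]
  | cons c w ih => simp [split, ih]

theorem split_map (φ : M →+ N) (a : Λ) (f : List Λ → List Λ → M) (w : List Λ) :
    φ (split a f w) = split a (fun u v => φ (f u v)) w := by
  induction w generalizing f with
  | nil => simp [split]
  | cons c w ih =>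
    simp only [split, map_add, ih]
    split_ifs <;> simp

theorem split_sum {ι : Type} (s : Finset ι) (a : Λ) (f : ι → List Λ → List Λ → M) (w : List Λ) :
    split a (fun u v => ∑ i ∈ s, f i u v) w = ∑ i ∈ s, split a (f i) w := by
  classical
  induction s using Finset.induction_on with
  | empty => simp [split_zero]
  | insert i s hi ih => simp [Finset.sum_insert hi, split_add, ih]

theorem split_rel (R : M → N → Prop) (h0 : R 0 0)
    (hadd : ∀ x y x' y', R x x' → R y y' → R (x + y) (x' + y')) (a : Λ) (w : List Λ)
    (f : List Λ → List Λ → M) (g : List Λ → List Λ → N)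
    (h : ∀ u v, w = u ++ a :: v → R (f u v) (g u v)) : R (split a f w) (split a g w) := by
  induction w generalizing f g with
  | nil => simpa [split] using h0
  | cons c w ih =>
    simp only [split]
    refine hadd _ _ _ _ ?_ (ih _ _ fun u v e => h (c :: u) v (by simp [e]))
    split_ifs with hc
    · exact h [] w (by simp [hc])
    · exact h0

theorem split_congr (a : Λ) (w : List Λ) (f g : List Λ → List Λ → M)
    (h : ∀ u v, w = u ++ a :: v → f u v = g u v) : split a f w = split a g w :=
  split_rel (fun x y => x = y) rfl (fun _ _ _ _ h h' => by rw [h, h']) a w f g h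

theorem split_split (a b : Λ) (h : List Λ → List Λ → List Λ → M) (w : List Λ) :
    split a (fun u v => split b (fun u' v' => h u u' v') v) w =
      split b (fun U v' => split a (fun u u' => h u u' v') U) w := by
  induction w generalizing h with
  | nil => simp [split]
  | cons c w ih =>
    simp only [split]
    rw [ih (fun u u' v' => h (c :: u) u' v')]
    simp only [split_add]
    by_cases hac : a = c
    · simp [hac]
    · simp [hac, split_zero]

theorem split_replicate (a : Λ) (g : ℕ → ℕ → M) (w : List Λ) (hw : ∀ x ∈ w, x = a) :
    split a (fun u v => g u.length v.length) w =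
      ∑ i ∈ Finset.range w.length, g i (w.length - 1 - i) := by
  induction w generalizing g with
  | nil => simp [split]
  | cons c w ih =>
    rw [List.forall_mem_cons] at hw
    simp only [split, List.length_cons, List.length_nil, if_pos hw.1.symm]
    rw [ih (fun i j => g (i + 1) j) hw.2, Finset.sum_range_succ', add_comm]
    refine congrArg₂ _ (Finset.sum_congr rfl fun i _ => ?_) ?_
    · congr 1
      omega
    · congr 1

/-- The sum over the ways of merging `a :: w` with one of the words `ws` at a letter `a`. -/
def msum (a : Λ) (w : List Λ) : (List (List Λ) → M) → List (List Λ) → M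
  | _, [] => 0
  | g, w' :: ws => split a (fun u v => g ((v ++ u ++ w) :: ws)) w' +
      msum a w (fun l => g (w' :: l)) ws

theorem msum_map (φ : M →+ N) (a : Λ) (w : List Λ) (g : List (List Λ) → M)
    (ws : List (List Λ)) : φ (msum a w g ws) = msum a w (fun l => φ (g l)) ws := by
  induction ws generalizing g with
  | nil => simp [msum]
  | cons w' ws ih => simp only [msum, map_add, split_map, ih]

end Split

/-- Size of a list of words used for inductions. -/
def size {Λ : Type} (ws : List (List Λ)) : ℕ := (ws.map fun w => w.length + 1).sum

theorem msum_rel {Λ M N : Type} [DecidableEq Λ] [AddCommMonoid M] [AddCommMonoid N]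
    (R : M → N → Prop) (h0 : R 0 0)
    (hadd : ∀ x y x' y', R x x' → R y y' → R (x + y) (x' + y')) (a : Λ) (w : List Λ)
    (ws : List (List Λ)) (f : List (List Λ) → M) (g : List (List Λ) → N)
    (h : ∀ l : List (List Λ), size l + 1 ≤ size ws + w.length → R (f l) (g l)) :
    R (msum a w f ws) (msum a w g ws) := by
  induction ws generalizing f g with
  | nil => simpa [msum] using h0
  | cons w' ws ih =>
    simp only [msum]
    refine hadd _ _ _ _ (split_rel R h0 hadd a w' _ _ fun u v e => h _ ?_)
      (ih _ _ fun l hl => h _ ?_)
    · simp [size, e]
      omega
    · simp [size] at hl ⊢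
      omega

section Semicircular

variable {Λ : Type} [DecidableEq Λ]

/-- `opProd semi w` applied to the vacuum. -/
noncomputable def fvec (w : List Λ) : Fck Λ := opProd semi w vac

/-- Joint moment of free semicircular variables. -/
noncomputable def tau (w : List Λ) : ℝ := vacState (opProd semi w)

theorem tau_eq (w : List Λ) : tau w = fvec w [] := rfl

theorem tau_nil : tau ([] : List Λ) = 1 := by
  simp [tau_eq, fvec, opProd, vac]

theorem fvec_cons (c : Λ) (w : List Λ) : fvec (c :: w) = semi c (fvec w) := by
  simp [fvec, opProd, Module.End.mul_apply]

theorem semi_apply_nil (c : Λ) (x : Fck Λ) : semi c x [] = x [c] := by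
  induction x using Finsupp.induction_linear with
  | zero => simp
  | add x y hx hy => simp [map_add, hx, hy]
  | single u r =>
    rw [show Finsupp.single u r = r • word u by simp [word], map_smul]
    simp only [semi, create, annihilate, LinearMap.add_apply, onWords_word]
    rcases u with _ | ⟨d, u⟩
    · simp [word]
    · by_cases h : c = d <;> simp [word, h, Finsupp.single_apply, eq_comm]

theorem semi_apply_cons (c b : Λ) (r : List Λ) (x : Fck Λ) :
    semi c x (b :: r) = (if b = c then x r else 0) + x (c :: b :: r) := by
  induction x using Finsupp.induction_linear with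
  | zero => simp
  | add x y hx hy =>
    simp only [map_add, Finsupp.add_apply, hx, hy]
    split_ifs <;> abel
  | single u s =>
    rw [show Finsupp.single u s = s • word u by simp [word], map_smul]
    simp only [semi, create, annihilate, LinearMap.add_apply, onWords_word]
    rcases u with _ | ⟨d, u⟩
    · by_cases h : b = c <;> simp [word, h, Finsupp.single_apply, eq_comm]
    · by_cases h : b = c <;> by_cases h' : c = d <;>
        simp [word, h, h', Finsupp.single_apply, eq_comm, ite_and]

theorem fvec_apply_cons (n : ℕ) : ∀ (w : List Λ) (b : Λ) (r : List Λ), w.length ≤ n →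
    fvec w (b :: r) = split b (fun u v => tau u * fvec v r) w := by
  induction n with
  | zero =>
    intro w b r hw
    obtain rfl := List.length_eq_zero_iff.mp (Nat.le_zero.mp hw)
    simp [split, fvec, opProd, vac]
  | succ n ih =>
    intro w b r hw
    rcases w with _ | ⟨c, w⟩
    · simp [split, fvec, opProd, vac]
    have hwn : w.length ≤ n := by simpa using hw
    rw [fvec_cons, semi_apply_cons, ih w c (b :: r) hwn, split, tau_nil, one_mul]
    congr 1
    rw [split_congr c w (fun u v => tau u * fvec v (b :: r))
        (fun u v => split b (fun u' v' => tau u * (tau u' * fvec v' r)) v) (fun u v e => ?_),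
      split_split c b (fun u u' v' => tau u * (tau u' * fvec v' r))]
    · refine split_congr b w _ _ fun U v e => ?_
      have hU : U.length ≤ n := by simp [e] at hwn; omega
      rw [tau_eq (c :: U), fvec_cons, semi_apply_nil, ih U c [] hU]
      refine (split_congr c U _ _ fun u u' _ => ?_).trans
        (split_map (AddMonoidHom.mulRight (fvec v r)) c _ U).symm
      simp [tau_eq, mul_assoc]
    · have hv : v.length ≤ n := by simp [e] at hwn; omega
      rw [ih v b r hv]
      exact (split_map (AddMonoidHom.mulLeft (tau u)) b _ v).trans rfl

/-- The Schwinger–Dyson equation for free semicircular variables. -/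
theorem tau_cons (a : Λ) (w : List Λ) : tau (a :: w) = split a (fun u v => tau u * tau v) w := by
  rw [tau_eq, fvec_cons, semi_apply_nil, fvec_apply_cons w.length w a [] le_rfl]
  rfl

end Semicircular

end GUE

end Vale.Agent.P087
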