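import Vale.Agent.P087.Interfaces
import Vale.Agent.P087.GUE.Split
import Vale.Agent.P087.GUE.Gauss

/-!
# P087, module GUE: Gaussian integration by parts for polynomials in the matrix entries and the
recursion for expectations of products of normalised traces.
-/

open MeasureTheory ProbabilityTheory MvPolynomial
open scoped NNReal ENNReal

namespace Vale.Agent.P087

namespace GUE

set_option linter.unusedSectionVars false

noncomputable section

variable {Λ : Type} [Fintype Λ] [DecidableEq Λ] {k : ℕ}

/-- Index of a real coordinate. -/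
abbrev Coord (Λ : Type) (k : ℕ) := Λ × Fin k × Fin k

/-- Polynomials in the coordinates. -/
abbrev Poly (Λ : Type) (k : ℕ) := MvPolynomial (Coord Λ k) ℂ

/-- Evaluation at a point. -/
def ev (x : Λ → Fin k → Fin k → ℝ) : Poly Λ k →+* ℂ :=
  MvPolynomial.eval fun v => (x v.1 v.2.1 v.2.2 : ℂ)

theorem ev_monomial (x : Λ → Fin k → Fin k → ℝ) (α : Coord Λ k →₀ ℕ) (c : ℂ) :
    ev x (MvPolynomial.monomial α c) = c * ∏ a, ∏ p, ∏ q, (x a p q : ℂ) ^ α (a, p, q) := by
  rw [ev, eval_monomial, Finsupp.prod_fintype _ _ (fun i => pow_zero _)]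
  simp only [Fintype.prod_prod_type]

instance : IsProbabilityMeasure (gueMeasure Λ k) := by
  unfold gueMeasure; infer_instance

theorem integrable_monomial (α : Coord Λ k →₀ ℕ) (c : ℂ) :
    Integrable (fun x => ev x (MvPolynomial.monomial α c)) (gueMeasure Λ k) := by
  simp only [ev_monomial]
  refine Integrable.const_mul ?_ c
  refine Integrable.fintype_prod (f := fun a (y : Fin k → Fin k → ℝ) =>
    ∏ p, ∏ q, (y p q : ℂ) ^ α (a, p, q)) fun a => ?_
  refine Integrable.fintype_prod (f := fun p (y : Fin k → ℝ) =>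
    ∏ q, (y q : ℂ) ^ α (a, p, q)) fun p => ?_
  refine Integrable.fintype_prod (f := fun q (y : ℝ) => (y : ℂ) ^ α (a, p, q)) fun q => ?_
  simpa using (integrable_pow_gaussian _ (α (a, p, q))).ofReal (𝕜 := ℂ)

theorem integrable_ev (P : Poly Λ k) : Integrable (fun x => ev x P) (gueMeasure Λ k) := by
  induction P using MvPolynomial.induction_on' with
  | monomial α c => exact integrable_monomial α c
  | add P Q hP hQ => simp only [map_add]; exact hP.add hQ

/-- The expectation of a polynomial. -/
def expect : Poly Λ k →ₗ[ℂ] ℂ where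
  toFun P := ∫ x, ev x P ∂gueMeasure Λ k
  map_add' P Q := by
    simp only [map_add]
    exact integral_add (integrable_ev P) (integrable_ev Q)
  map_smul' c P := by
    simp only [MvPolynomial.smul_eq_C_mul, map_mul, RingHom.id_apply, smul_eq_mul]
    rw [← integral_const_mul]
    simp [ev]

theorem expect_apply (P : Poly Λ k) : expect P = ∫ x, ev x P ∂gueMeasure Λ k := rfl

theorem expect_monomial (α : Coord Λ k →₀ ℕ) (c : ℂ) :
    expect (MvPolynomial.monomial α c) = c * ∏ v, (gmom ((k : ℝ≥0))⁻¹ (α v) : ℂ) := by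
  simp only [expect_apply, ev_monomial]
  rw [integral_const_mul, gueMeasure,
    integral_fintype_prod_eq_prod (f := fun a (y : Fin k → Fin k → ℝ) =>
      ∏ p, ∏ q, (y p q : ℂ) ^ α (a, p, q))]
  congr 1
  rw [Fintype.prod_prod_type]
  refine Finset.prod_congr rfl fun a _ => ?_
  rw [integral_fintype_prod_eq_prod (f := fun p (y : Fin k → ℝ) =>
    ∏ q, (y q : ℂ) ^ α (a, p, q)), Fintype.prod_prod_type]
  refine Finset.prod_congr rfl fun p _ => ?_
  rw [integral_fintype_prod_eq_prod (f := fun q (y : ℝ) => (y : ℂ) ^ α (a, p, q))]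
  refine Finset.prod_congr rfl fun q _ => ?_
  rw [gmom, ← integral_complex_ofReal]
  simp

theorem expect_C (c : ℂ) : expect (C c : Poly Λ k) = c := by
  simp [expect_apply, ev]

theorem expect_one : expect (1 : Poly Λ k) = 1 := by simp [expect_apply]

theorem expect_C_mul (c : ℂ) (P : Poly Λ k) : expect (C c * P) = c * expect P := by
  rw [← MvPolynomial.smul_eq_C_mul, map_smul, smul_eq_mul]

/-- Gaussian integration by parts. -/
theorem expect_X_mul (hk : k ≠ 0) (v : Coord Λ k) (P : Poly Λ k) :
    expect (X v * P) = (k : ℂ)⁻¹ * expect (pderiv v P) := by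
  induction P using MvPolynomial.induction_on' with
  | add P Q hP hQ => simp only [mul_add, map_add, hP, hQ]
  | monomial α c =>
    have hv : ((k : ℝ≥0))⁻¹ ≠ 0 := by simpa using hk
    rw [show X v * MvPolynomial.monomial α c = MvPolynomial.monomial (Finsupp.single v 1 + α) c by
      rw [X, monomial_mul, one_mul], pderiv_monomial, expect_monomial, expect_monomial,
      ← Finset.mul_prod_erase _ _ (Finset.mem_univ v),
      ← Finset.mul_prod_erase _ _ (Finset.mem_univ v)]
    have h : ∀ u ∈ Finset.univ.erase v,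
        (gmom ((k : ℝ≥0))⁻¹ ((Finsupp.single v 1 + α : Coord Λ k →₀ ℕ) u) : ℂ) =
          (gmom ((k : ℝ≥0))⁻¹ ((α - Finsupp.single v 1 : Coord Λ k →₀ ℕ) u) : ℂ) := fun u hu => by
      have hne : v ≠ u := fun e => (Finset.mem_erase.mp hu).1 e.symm
      simp [Finsupp.single_apply, hne]
    rw [Finset.prod_congr rfl h]
    simp only [Finsupp.coe_add, Pi.add_apply, Finsupp.single_eq_same, Finsupp.coe_tsub,
      Pi.sub_apply]
    rw [add_comm 1 (α v), gmom_succ hv]
    push_cast
    ring

/-- The entry `(p, q)` of the matrix `a`. -/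
def hent (a : Λ) (p q : Fin k) : Poly Λ k :=
  if p = q then X (a, p, p)
  else if p < q then C ((Real.sqrt 2 : ℂ)⁻¹) * (X (a, p, q) + C Complex.I * X (a, q, p))
  else C ((Real.sqrt 2 : ℂ)⁻¹) * (X (a, q, p) - C Complex.I * X (a, p, q))

/-- The derivation attached to the entry `(p, q)` of the matrix `a`. -/
def dent (a : Λ) (p q : Fin k) : Derivation ℂ (Poly Λ k) (Poly Λ k) :=
  if p = q then pderiv (a, p, p)
  else if p < q then (Real.sqrt 2 : ℂ)⁻¹ • (pderiv (a, p, q) + Complex.I • pderiv (a, q, p))
  else (Real.sqrt 2 : ℂ)⁻¹ • (pderiv (a, q, p) - Complex.I • pderiv (a, p, q))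

theorem dent_hent (a b : Λ) (p q r s : Fin k) :
    dent a p q (hent b r s) = if a = b ∧ r = q ∧ p = s then 1 else 0 := by
  have hsq : (Real.sqrt 2 : ℂ)⁻¹ ^ 2 = (2 : ℂ)⁻¹ := by
    rw [pow_two, ← mul_inv, ← Complex.ofReal_mul, Real.mul_self_sqrt (by norm_num)]
    norm_num
  have key : ∀ u v : Coord Λ k, pderiv u (X v : Poly Λ k) = C (if u = v then (1 : ℂ) else 0) :=
      fun u v => by
    rw [pderiv_X]
    by_cases h : u = v <;> simp [h, eq_comm]
  rw [show (if a = b ∧ r = q ∧ p = s then (1 : Poly Λ k) else 0) =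
    C (if a = b ∧ r = q ∧ p = s then (1 : ℂ) else 0) by split_ifs <;> simp]
  unfold dent hent
  generalize (Real.sqrt 2 : ℂ)⁻¹ = z at hsq ⊢
  by_cases hpq : p = q <;> by_cases hlt : p < q <;> by_cases hrs : r = s <;>
    by_cases hlt' : r < s <;>
    simp only [hpq, hlt, hrs, hlt', if_true, if_false, Derivation.coe_smul, Derivation.coe_add,
      Derivation.coe_sub, Pi.smul_apply, Pi.add_apply, Pi.sub_apply, pderiv_C_mul, map_add, map_sub,
      key, Prod.mk.injEq, MvPolynomial.smul_eq_C_mul] <;>
    (try simp only [← map_mul, ← map_add, ← map_sub]) <;> congr 1 <;>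
    (by_cases hab : a = b <;> simp only [hab, true_and, false_and, if_false, mul_zero, add_zero,
      sub_zero, zero_add]) <;>
    split_ifs <;> (try (exfalso; omega)) <;> ring_nf <;>
    (try simp [hsq, Complex.I_sq]) <;> (try norm_num)

/-- Integration by parts with respect to a matrix entry. -/
theorem expect_hent_mul (hk : k ≠ 0) (a : Λ) (p q : Fin k) (P : Poly Λ k) :
    expect (hent a p q * P) = (k : ℂ)⁻¹ * expect (dent a p q P) := by
  unfold hent dent
  split_ifs with h h'
  · exact expect_X_mul hk _ P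
  · rw [mul_assoc, expect_C_mul, add_mul, mul_assoc, map_add, expect_C_mul, expect_X_mul hk,
      expect_X_mul hk]
    simp only [Derivation.coe_smul, Derivation.coe_add, Pi.smul_apply, Pi.add_apply, map_smul,
      map_add, smul_eq_mul]
    ring
  · rw [mul_assoc, expect_C_mul, sub_mul, mul_assoc, map_sub, expect_C_mul, expect_X_mul hk,
      expect_X_mul hk]
    simp only [Derivation.coe_smul, Derivation.coe_sub, Pi.smul_apply, Pi.sub_apply, map_smul,
      map_sub, smul_eq_mul]
    ring

/-- The matrix `a`. -/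
def hmat (a : Λ) : Matrix (Fin k) (Fin k) (Poly Λ k) := Matrix.of fun p q => hent a p q

/-- The product along a word. -/
def hword (w : List Λ) : Matrix (Fin k) (Fin k) (Poly Λ k) := (w.map hmat).prod

/-- The normalised trace of a word. -/
def ntr (w : List Λ) : Poly Λ k := C (k : ℂ)⁻¹ * (hword w).trace

/-- The product of normalised traces. -/
def ntrs (ws : List (List Λ)) : Poly Λ k := (ws.map ntr).prod

theorem hword_nil : (hword [] : Matrix (Fin k) (Fin k) (Poly Λ k)) = 1 := rfl

theorem hword_cons (c : Λ) (w : List Λ) :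
    (hword (c :: w) : Matrix (Fin k) (Fin k) (Poly Λ k)) = hmat c * hword w := rfl

theorem hword_append (u v : List Λ) :
    (hword (u ++ v) : Matrix (Fin k) (Fin k) (Poly Λ k)) = hword u * hword v := by
  simp [hword]

theorem dent_hword (a : Λ) (p q : Fin k) (w : List Λ) (i j : Fin k) :
    dent a p q (hword w i j) = split a (fun u v => hword u i q * hword v p j) w := by
  induction w generalizing i j with
  | nil =>
    rw [hword_nil, split, Matrix.one_apply]
    split_ifs <;> simp
  | cons c w ih =>
    rw [hword_cons, Matrix.mul_apply, map_sum, split]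
    simp only [Derivation.leibniz, smul_eq_mul, ih, hmat, Matrix.of_apply, dent_hent]
    have h2 : ∀ l, hent c i l * split a (fun u v => hword u l q * hword v p j) w =
        split a (fun u v => hent c i l * (hword u l q * hword v p j)) w := fun l =>
      split_map (AddMonoidHom.mulLeft (hent c i l)) a _ w
    rw [Finset.sum_add_distrib, add_comm]
    simp only [h2]
    rw [← split_sum]
    congr 1
    · simp only [hword_nil, Matrix.one_apply, ite_and, mul_ite, mul_one, mul_zero]
      by_cases hc : a = c <;> by_cases hi : i = q <;> simp [hc, hi]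
    · refine split_congr a w _ _ fun u v _ => ?_
      simp only [hword_cons, Matrix.mul_apply, Finset.sum_mul, hmat, Matrix.of_apply, mul_assoc]

theorem trace_mul_eq_sum {R : Type} [CommRing R] (A B : Matrix (Fin k) (Fin k) R) :
    (A * B).trace = ∑ p, ∑ q, A p q * B q p := by
  simp [Matrix.trace, Matrix.mul_apply]

theorem kinv_mul (hk : k ≠ 0) (P : Poly Λ k) : C (k : ℂ)⁻¹ * ((C (k : ℂ)) * P) = P := by
  rw [← mul_assoc, ← map_mul, inv_mul_cancel₀ (by exact_mod_cast hk), map_one, one_mul]

theorem trace_eq_ntr (hk : k ≠ 0) (w : List Λ) :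
    (hword w : Matrix (Fin k) (Fin k) (Poly Λ k)).trace = C (k : ℂ) * ntr w := by
  rw [ntr, ← mul_assoc, ← map_mul, mul_inv_cancel₀ (by exact_mod_cast hk), map_one, one_mul]

theorem sum_dent_hword (hk : k ≠ 0) (a : Λ) (w : List Λ) :
    (∑ p, ∑ q, dent a p q (hword w q p) : Poly Λ k) =
      C ((k : ℂ) ^ 2) * split a (fun u v => ntr u * ntr v) w := by
  simp only [dent_hword, ← split_sum]
  rw [← AddMonoidHom.coe_mulLeft (C ((k : ℂ) ^ 2)), split_map]
  refine split_congr a w _ _ fun u v _ => ?_
  rw [Finset.sum_comm]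
  simp only [← Finset.mul_sum, ← Finset.sum_mul, AddMonoidHom.coe_mulLeft]
  change (hword u).trace * (hword v).trace = _
  rw [trace_eq_ntr hk, trace_eq_ntr hk, pow_two, map_mul]
  ring

theorem dent_ntr (a : Λ) (p q : Fin k) (w' : List Λ) :
    dent a p q (ntr w' : Poly Λ k) =
      C (k : ℂ)⁻¹ * split a (fun u v => ∑ i, hword u i q * hword v p i) w' := by
  rw [ntr, ← MvPolynomial.smul_eq_C_mul, Derivation.map_smul, MvPolynomial.smul_eq_C_mul,
    Matrix.trace, map_sum, split_sum]
  congr 1
  exact Finset.sum_congr rfl fun i _ => dent_hword a p q w' i i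

theorem sum_hword_dent_ntr (a : Λ) (w w' : List Λ) :
    (∑ p, ∑ q, hword w q p * dent a p q (ntr w') : Poly Λ k) =
      split a (fun u v => ntr (v ++ u ++ w)) w' := by
  have h2 : ∀ p q : Fin k, hword w q p * dent a p q (ntr w' : Poly Λ k) =
      split a (fun u v => hword w q p * (C (k : ℂ)⁻¹ * ∑ i, hword u i q * hword v p i)) w' :=
    fun p q => by
      rw [dent_ntr]
      exact (congrArg (hword w q p * ·) (split_map (AddMonoidHom.mulLeft (C (k : ℂ)⁻¹)) a _ w')).trans
        (split_map (AddMonoidHom.mulLeft (hword w q p)) a _ w')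
  simp only [h2]
  simp only [← split_sum]
  refine split_congr a w' _ _ fun u v _ => ?_
  have h3 : (hword (v ++ u ++ w) : Matrix (Fin k) (Fin k) (Poly Λ k)).trace =
      ∑ p, ∑ q, hword w q p * ∑ i, hword u i q * hword v p i := by
    rw [hword_append, hword_append, trace_mul_eq_sum]
    refine Finset.sum_congr rfl fun p _ => Finset.sum_congr rfl fun q _ => ?_
    rw [Matrix.mul_apply, mul_comm]
    congr 1
    exact Finset.sum_congr rfl fun i _ => mul_comm _ _
  rw [ntr, h3, Finset.mul_sum]
  refine Finset.sum_congr rfl fun p _ => ?_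
  rw [Finset.mul_sum]
  exact Finset.sum_congr rfl fun q _ => mul_left_comm _ _ _

theorem dent_ntrs (a : Λ) (w : List Λ) (ws : List (List Λ)) :
    ∑ p, ∑ q, hword w q p * dent a p q (ntrs ws) = (msum a w ntrs ws : Poly Λ k) := by
  induction ws with
  | nil => simp [ntrs, msum]
  | cons w' ws ih =>
    have hd : ∀ p q : Fin k, hword w q p * dent a p q (ntrs (w' :: ws) : Poly Λ k) =
        hword w q p * dent a p q (ntr w') * ntrs ws +
          ntr w' * (hword w q p * dent a p q (ntrs ws)) := fun p q => by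
      rw [show (ntrs (w' :: ws) : Poly Λ k) = ntr w' * ntrs ws from rfl, Derivation.leibniz]
      simp only [smul_eq_mul]
      ring
    simp only [hd, Finset.sum_add_distrib, ← Finset.sum_mul, ← Finset.mul_sum, ih,
      sum_hword_dent_ntr]
    rw [msum]
    congr 1
    · exact split_map (AddMonoidHom.mulRight (ntrs ws)) a _ w'
    · exact msum_map (AddMonoidHom.mulLeft (ntr w')) a w ntrs ws

/-- Expectations of products of normalised traces. -/
def mom (Λ : Type) [Fintype Λ] [DecidableEq Λ] (k : ℕ) (ws : List (List Λ)) : ℂ :=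
  expect (ntrs ws : Poly Λ k)

theorem mom_nil : mom Λ k [] = 1 := expect_one

theorem mom_nil_cons (hk : k ≠ 0) (ws : List (List Λ)) : mom Λ k ([] :: ws) = mom Λ k ws := by
  have h : (ntr [] : Poly Λ k) = 1 := by
    rw [ntr, hword_nil, Matrix.trace_one, Fintype.card_fin, ← map_natCast (C (σ := Coord Λ k)),
      ← map_mul, inv_mul_cancel₀ (by exact_mod_cast hk), map_one]
  simp [mom, ntrs, h]

/-- The Schwinger–Dyson recursion. -/
theorem mom_cons (hk : k ≠ 0) (a : Λ) (w : List Λ) (ws : List (List Λ)) :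
    mom Λ k ((a :: w) :: ws) =
      split a (fun u v => mom Λ k (u :: v :: ws)) w +
        ((k : ℂ) ^ 2)⁻¹ * msum a w (mom Λ k) ws := by
  have hk' : (k : ℂ) ≠ 0 := by exact_mod_cast hk
  have h1 : (ntrs ((a :: w) :: ws) : Poly Λ k) =
      C (k : ℂ)⁻¹ * ∑ p, ∑ q, hent a p q * (hword w q p * ntrs ws) := by
    rw [show (ntrs ((a :: w) :: ws) : Poly Λ k) = ntr (a :: w) * ntrs ws from rfl, ntr, hword_cons,
      trace_mul_eq_sum, mul_assoc, Finset.sum_mul]
    congr 1
    refine Finset.sum_congr rfl fun p _ => ?_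
    rw [Finset.sum_mul]
    exact Finset.sum_congr rfl fun q _ => mul_assoc _ _ _
  rw [mom, h1, expect_C_mul]
  simp only [map_sum, expect_hent_mul hk, ← Finset.mul_sum]
  simp only [← map_sum]
  simp only [Derivation.leibniz, smul_eq_mul, Finset.sum_add_distrib, ← Finset.mul_sum,
    sum_dent_hword hk, dent_ntrs]
  rw [map_add, mul_left_comm (ntrs ws), expect_C_mul,
    ← AddMonoidHom.coe_mulLeft (ntrs ws : Poly Λ k), split_map]
  have e1 : expect (split a (fun u v =>
      AddMonoidHom.mulLeft (ntrs ws : Poly Λ k) (ntr u * ntr v)) w) =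
      split a (fun u v => mom Λ k (u :: v :: ws)) w := by
    refine (split_map (expect (Λ := Λ) (k := k)).toAddMonoidHom a _ w).trans
      (split_congr a w _ _ fun u v _ => ?_)
    simp [mom, ntrs, mul_assoc, mul_left_comm, mul_comm]
  have e2 : expect (msum a w ntrs ws : Poly Λ k) = msum a w (mom Λ k) ws :=
    msum_map (expect (Λ := Λ) (k := k)).toAddMonoidHom a w _ ws
  rw [e1, e2]
  field_simp
  ring

end

end GUE

end Vale.Agent.P087
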